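import Vale.Agent.P141.H879.Asm
import Vale.Agent.P141.H401.DvS
import Vale.Agent.P141.H305.CutU
import Vale.Agent.P141.H64.HSt3
import Vale.Agent.P141.H74.HSt12
import Vale.Agent.P141.H508.HSt0
import Vale.Agent.P141.H677.SkelTF2
import Vale.Agent.P141.H652.RedF

/-!
# P141, line (A): the assembly down to the leaves

Every statement which is still open is a hypothesis.  A price `CSt T` of a functional of the
definite cut families is `CSt.of_mk : MkSt D → PartF D T → CSt T`.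

* `CSt.scale` : a constant factor; `cst_f0` : the term of scale `0` vanishes;
* `cst_flow` : the flow part from its four parts;
* `full` : the final statement from the prices of the cut families;
* `CStV.add`, `CStV.scale`, `cstV_flow`, `fullV` : the same with the static cut of `v`;
* `CStUV.add`, `CStUV.scale`, `cstUV_flow`, `fullUV` : the same with the static cuts of `u`, `v`.
-/

namespace Vale.Agent.P141.H879

open Vale.Agent.P141.PL (Pt cx)
open Vale.Agent.P141.PL.H315 (Tri)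
open Vale.Agent.P141.H401
open Vale.Agent.P141.H677.Sk

/-- **A constant factor.** -/
theorem CSt.scale {T1 T : H401.FunF} {q : ℝ} (hq : 0 ≤ q) (H : CSt T1)
    (h : ∀ (ι : Type) [Fintype ι] [DecidableEq ι] (l : ℝ) (o : ℤ) (Al : ℕ → Pt → Prop) (K : ℕ)
      (x : Pt) (u : ℤ → ℤ → ι → ℝ) (A : FamA) (b C : FamV ι) (sg : ℕ → Pt → ℝ),
      T ι l o Al K x u A b C sg ≤ q * T1 ι l o Al K x u A b C sg) : CSt T := by
  intro a ha ha1
  obtain ⟨es, hes, H⟩ := H a ha ha1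
  refine ⟨es, hes, fun e0 he0 he0' => ?_⟩
  obtain ⟨k8, hk8, H⟩ := H e0 he0 he0'
  refine ⟨k8, hk8, fun k8' hk8' hk8'' => ?_⟩
  obtain ⟨k3, hk3, H⟩ := H k8' hk8' hk8''
  refine ⟨k3, hk3, fun k3' hk3' hk3'' => ?_⟩
  obtain ⟨g1, c1, d1, l1, hg1, hc1, hd1, hl1, H⟩ := H k3' hk3' hk3''
  refine ⟨g1, c1, d1, l1, hg1, hc1, hd1, hl1,
    fun c' hc' hcc d hd hdd Kt e cP L hK he hcP hL => ?_⟩
  obtain ⟨CD, hCD, C, hC, H⟩ := H c' hc' hcc d hd hdd Kt e cP L hK he hcP hL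
  refine ⟨CD, hCD, q * C, mul_nonneg hq hC, ?_⟩
  intro t ht ht1 n ez F1 F2 F3 h1 h3 h2 o ho K hKn x ι _ _ s r U g u v hs hr hcls Q1 Q2 Q3 q1 q2
    q3 sg hsg
  have k1 := H t ht ht1 n ez F1 F2 F3 h1 h3 h2 o ho K hKn x ι s r U g u v hs hr hcls Q1 Q2 Q3 q1
    q2 q3 sg hsg
  refine (h ι _ o _ K x u _ _ _ sg).trans ((mul_le_mul_of_nonneg_left k1 hq).trans (le_of_eq ?_))
  ring

section zero

variable {ι : Type} [Fintype ι] [DecidableEq ι]

omit [Fintype ι] [DecidableEq ι] in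
theorem mC_zero (p : H401.Num) (U : Tri) (K : ℕ) (v : ℤ → ℤ → ι → ℝ) (F2 : ℕ → Pt → ℝ) (x0 z x : ℤ) :
    mC p U K v F2 x0 0 z x = 0 := by
  unfold mC H677.fC H677.kF
  rw [if_pos (Or.inl rfl), zero_smul]

theorem q0_zero (K : ℕ) (M : Pt) (R : Slt ι) (A : FamA) (b C : FamV ι)
    (h : ∀ x0 z x, C x0 0 z x = 0) : q0 K M R A b C = 0 := by
  unfold q0
  refine Finset.sum_eq_zero fun t _ => Finset.sum_eq_zero fun x0 _ => ?_
  have e : H677.GA (A x0) (b x0) (C x0) (R x0) 0 0 = fun _ => 0 := by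
    funext y
    unfold H677.GA
    rw [h, Matrix.mulVec_zero, dotProduct_zero, mul_zero]
  rw [e]
  unfold H352.In
  simp

end zero

/-- **The term of scale `0`.** -/
theorem cst_f0 : CSt f0 := by
  intro a _ _
  refine ⟨1, one_pos, fun e0 _ _ => ⟨1, one_pos, fun k8 _ _ => ⟨1, one_pos, fun k3 _ _ =>
    ⟨1, 1, 1, 1, one_pos, one_pos, one_pos, one_pos, fun c _ _ d _ _ Kt e cP L _ _ _ _ =>
      ⟨1, le_rfl, 0, le_rfl, ?_⟩⟩⟩⟩⟩
  intro t ht ht1 n ez F1 F2 F3 h1 h3 h2 o ho K hKn x ι _ _ s r U g u v hs hr hcls Q1 Q2 Q3 q1 q2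
    q3 sg hsg
  refine le_of_eq ?_
  rw [zero_mul, zero_mul]
  exact q0_zero _ _ _ _ _ _ fun x0 z x' => mC_zero ..

/-- **The flow part from its four parts.** -/
theorem cst_flow (HN : CSt fN) (HB : CSt fB) (HS : CSt fS) (HM : CSt fM) : CSt NF := by
  have h1 : CSt (fun ι _ _ l o Al K x u A b C sg =>
      fS ι l o Al K x u A b C sg + fM ι l o Al K x u A b C sg) :=
    HS.add HM fun ι _ _ l o Al K x u A b C sg => le_rfl
  have h2 : CSt (fun ι _ _ l o Al K x u A b C sg =>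
      8 / 3 * (fS ι l o Al K x u A b C sg + fM ι l o Al K x u A b C sg)) :=
    CSt.scale (by norm_num : (0 : ℝ) ≤ 8 / 3) h1 fun ι _ _ l o Al K x u A b C sg => le_rfl
  have h3 : CSt (fun ι _ _ l o Al K x u A b C sg => fB ι l o Al K x u A b C sg +
      8 / 3 * (fS ι l o Al K x u A b C sg + fM ι l o Al K x u A b C sg)) :=
    HB.add h2 fun ι _ _ l o Al K x u A b C sg => le_rfl
  have h4 : CSt (fun ι _ _ l o Al K x u A b C sg => f0 ι l o Al K x u A b C sg +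
      (fB ι l o Al K x u A b C sg +
        8 / 3 * (fS ι l o Al K x u A b C sg + fM ι l o Al K x u A b C sg))) :=
    cst_f0.add h3 fun ι _ _ l o Al K x u A b C sg => le_rfl
  exact HN.add h4 fun ι _ _ l o Al K x u A b C sg => NF_le l o Al K x u A b C sg

/-- **The assembly**: the prices of the cut families. -/
theorem full (H1 : HSt1) (H2 : HSt2) (H3 : HSt3) (HI : CSt NI) (HZ : CSt NZ) (HN : CSt fN)
    (HB : CSt fB) (HS : CSt fS) (HM : CSt fM) : H490.FinalStmt :=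
  final_of_ce1q (ce1q_of_cst (HSt.of_three H1 H2 H3) HI HZ (cst_flow HN HB HS HM))

/-- **The assembly with bundles.** -/
theorem full_mk {DI DZ DN DB DS DM : Bun} (H1 : HSt1) (H2 : HSt2) (H3 : HSt3)
    (MI : MkSt DI) (MZ : MkSt DZ) (MN : MkSt DN) (MB : MkSt DB) (MS : MkSt DS) (MM : MkSt DM)
    (HI : PartF DI NI) (HZ : PartF DZ NZ) (HN : PartF DN fN) (HB : PartF DB fB)
    (HS : PartG DS fun _ι _ _ K M R A b C h j e => FS1 K M R A b C h j e)
    (HM : PartG DM fun _ι _ _ K M R A b C h j e => FM1 K M R A b C h j e) : H490.FinalStmt :=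
  full H1 H2 H3 (CSt.of_mk MI HI) (CSt.of_mk MZ HZ) (CSt.of_mk MN HN) (CSt.of_mk MB HB)
    (CSt.of_mk MS (partF_fS HS)) (CSt.of_mk MM (partF_fM HM))

/-! ### With the static cut of `v` -/

/-- **A constant factor.** -/
theorem CStV.scale {Dv : Sel} {T1 T : H401.FunF} {q : ℝ} (hq : 0 ≤ q) (H : CStV Dv T1)
    (h : ∀ (ι : Type) [Fintype ι] [DecidableEq ι] (l : ℝ) (o : ℤ) (Al : ℕ → Pt → Prop) (K : ℕ)
      (x : Pt) (u : ℤ → ℤ → ι → ℝ) (A : FamA) (b C : FamV ι) (sg : ℕ → Pt → ℝ),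
      T ι l o Al K x u A b C sg ≤ q * T1 ι l o Al K x u A b C sg) : CStV Dv T := by
  intro a ha ha1
  obtain ⟨es, hes, H⟩ := H a ha ha1
  refine ⟨es, hes, fun e0 he0 he0' => ?_⟩
  obtain ⟨k8, hk8, H⟩ := H e0 he0 he0'
  refine ⟨k8, hk8, fun k8' hk8' hk8'' => ?_⟩
  obtain ⟨k3, hk3, H⟩ := H k8' hk8' hk8''
  refine ⟨k3, hk3, fun k3' hk3' hk3'' => ?_⟩
  obtain ⟨g1, c1, d1, l1, hg1, hc1, hd1, hl1, H⟩ := H k3' hk3' hk3''
  refine ⟨g1, c1, d1, l1, hg1, hc1, hd1, hl1,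
    fun c' hc' hcc d hd hdd Kt e cP L hK he hcP hL => ?_⟩
  obtain ⟨CD, hCD, C, hC, H⟩ := H c' hc' hcc d hd hdd Kt e cP L hK he hcP hL
  refine ⟨CD, hCD, q * C, mul_nonneg hq hC, ?_⟩
  intro t ht ht1 n ez F1 F2 F3 h1 h3 h2 o ho K hKn x ι _ _ s r U g u v hs hr hcls Q1 Q2 Q3 q1 q2
    q3 sg hsg
  have k1 := H t ht ht1 n ez F1 F2 F3 h1 h3 h2 o ho K hKn x ι s r U g u v hs hr hcls Q1 Q2 Q3 q1
    q2 q3 sg hsg
  refine (h ι _ o _ K x u _ _ _ sg).trans ((mul_le_mul_of_nonneg_left k1 hq).trans (le_of_eq ?_))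
  ring

/-- the set does not see the constant of the bundle -/
def SelC (Dv : Sel) : Prop :=
  ∀ (ι : Type) [Fintype ι] [DecidableEq ι] (p : H401.Num) (CD : ℝ) (K : ℕ) (x : Pt) (s r : ℝ)
    (U : Tri) (v : ℤ → ℤ → ι → ℝ), Dv ι { p with CD := CD } K x s r U v = Dv ι p K x s r U v

/-- **Two functionals of the cut families.** -/
theorem CStV.add {Dv : Sel} (hDv : SelC Dv) {T1 T2 T : H401.FunF} (H1 : CStV Dv T1)
    (H2 : CStV Dv T2)
    (h : ∀ (ι : Type) [Fintype ι] [DecidableEq ι] (l : ℝ) (o : ℤ) (Al : ℕ → Pt → Prop) (K : ℕ)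
      (x : Pt) (u : ℤ → ℤ → ι → ℝ) (A : FamA) (b C : FamV ι) (sg : ℕ → Pt → ℝ),
      T ι l o Al K x u A b C sg ≤ T1 ι l o Al K x u A b C sg +
        T2 ι l o Al K x u A b C sg) : CStV Dv T := by
  unfold CStV PartQ at H1 H2 ⊢
  refine PartQ.add H1 H2 ?_ ?_ ?_
  · intro ι _ _ p CD n ez F1 F2 F3 o K x s r U g u v B h1
    have e := hDv ι p CD K x s r U v
    simp only [e] at h1
    exact h1
  · intro ι _ _ p CD n ez F1 F2 F3 o K x s r U g u v B h1
    have e := hDv ι p CD K x s r U v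
    simp only [e] at h1
    exact h1
  · intro ι _ _ p n ez F1 F2 F3 o K x s r U g u v B1 B2 B _ _ _ _ k1 k2 k3 Q1 Q2 Q3 q1 q2 q3 sg hsg
    exact (h ι _ o _ K x u _ _ _ sg).trans ((add_le_add (k1 Q1 Q2 Q3 q1 q2 q3 sg hsg)
      (k2 Q1 Q2 Q3 q1 q2 q3 sg hsg)).trans k3)

/-- **The flow part from its four parts**, data with `lo`. -/
theorem cstV_flow {Dv : Sel} (hDv : SelC Dv) (HN : CStV Dv fN) (HB : CStV Dv fB)
    (HS : CStV Dv fS) (HM : CStV Dv fM) : CStV Dv NF := by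
  have h1 : CStV Dv (fun ι _ _ l o Al K x u A b C sg =>
      fS ι l o Al K x u A b C sg + fM ι l o Al K x u A b C sg) :=
    CStV.add hDv HS HM fun ι _ _ l o Al K x u A b C sg => le_rfl
  have h2 : CStV Dv (fun ι _ _ l o Al K x u A b C sg =>
      8 / 3 * (fS ι l o Al K x u A b C sg + fM ι l o Al K x u A b C sg)) :=
    CStV.scale (by norm_num : (0 : ℝ) ≤ 8 / 3) h1 fun ι _ _ l o Al K x u A b C sg => le_rfl
  have h3 : CStV Dv (fun ι _ _ l o Al K x u A b C sg => fB ι l o Al K x u A b C sg +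
      8 / 3 * (fS ι l o Al K x u A b C sg + fM ι l o Al K x u A b C sg)) :=
    CStV.add hDv HB h2 fun ι _ _ l o Al K x u A b C sg => le_rfl
  have h4 : CStV Dv (fun ι _ _ l o Al K x u A b C sg => f0 ι l o Al K x u A b C sg +
      (fB ι l o Al K x u A b C sg +
        8 / 3 * (fS ι l o Al K x u A b C sg + fM ι l o Al K x u A b C sg))) :=
    CStV.add hDv (cst_f0.toV Dv) h3 fun ι _ _ l o Al K x u A b C sg => le_rfl
  exact CStV.add hDv HN h4 fun ι _ _ l o Al K x u A b C sg => NF_le l o Al K x u A b C sg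

/-- **The assembly with the static cut of `v`**: the list of the open statements. -/
theorem fullV (Dv : Sel) (hDv : SelC Dv) (H0 : HSt0 Dv) (H1 : HSt1) (H2 : HSt2) (H3 : HSt3)
    (HI : CStV Dv NI) (HZ : CStV Dv NZ) (HN : CStV Dv fN) (HB : CStV Dv fB) (HS : CStV Dv fS)
    (HM : CStV Dv fM) : H490.FinalStmt :=
  final_of_ce1q (ce1q_of_cstV Dv (fun ι _ _ p CD K x s r U v => hDv ι p CD K x s r U v) H0
    ((HSt.of_three H1 H2 H3).toV Dv) HI HZ (cstV_flow hDv HN HB HS HM))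

/-- **THE LIST OF THE OPEN STATEMENTS**, cut at the dense fibres of `v`. -/
theorem open_list (HI : CStV DvS NI) (HZ : CStV DvS NZ) (HN : CStV DvS fN) (HB : CStV DvS fB)
    (HS : CStV DvS fS) (HM : CStV DvS fM) : H490.FinalStmt :=
  fullV DvS DvS_CD H508.hst0S H74.hst1 H74.hst2 H64.hSt3 HI HZ HN HB HS HM

/-! ### With the static cuts of `u` and `v` -/

open Vale.Agent.P141.H305.CutU

/-- **A constant factor.** -/
theorem CStUV.scale {Du Dv : Sel} {T1 T : H401.FunF} {q : ℝ} (hq : 0 ≤ q) (H : CStUV Du Dv T1)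
    (h : ∀ (ι : Type) [Fintype ι] [DecidableEq ι] (l : ℝ) (o : ℤ) (Al : ℕ → Pt → Prop) (K : ℕ)
      (x : Pt) (u : ℤ → ℤ → ι → ℝ) (A : FamA) (b C : FamV ι) (sg : ℕ → Pt → ℝ),
      T ι l o Al K x u A b C sg ≤ q * T1 ι l o Al K x u A b C sg) : CStUV Du Dv T := by
  intro a ha ha1
  obtain ⟨es, hes, H⟩ := H a ha ha1
  refine ⟨es, hes, fun e0 he0 he0' => ?_⟩
  obtain ⟨k8, hk8, H⟩ := H e0 he0 he0'
  refine ⟨k8, hk8, fun k8' hk8' hk8'' => ?_⟩
  obtain ⟨k3, hk3, H⟩ := H k8' hk8' hk8''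
  refine ⟨k3, hk3, fun k3' hk3' hk3'' => ?_⟩
  obtain ⟨g1, c1, d1, l1, hg1, hc1, hd1, hl1, H⟩ := H k3' hk3' hk3''
  refine ⟨g1, c1, d1, l1, hg1, hc1, hd1, hl1,
    fun c' hc' hcc d hd hdd Kt e cP L hK he hcP hL => ?_⟩
  obtain ⟨CD, hCD, C, hC, H⟩ := H c' hc' hcc d hd hdd Kt e cP L hK he hcP hL
  refine ⟨CD, hCD, q * C, mul_nonneg hq hC, ?_⟩
  intro t ht ht1 n ez F1 F2 F3 h1 h3 h2 o ho K hKn x ι _ _ s r U g u v hs hr hcls Q1 Q2 Q3 q1 q2
    q3 sg hsg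
  have k1 := H t ht ht1 n ez F1 F2 F3 h1 h3 h2 o ho K hKn x ι s r U g u v hs hr hcls Q1 Q2 Q3 q1
    q2 q3 sg hsg
  refine (h ι _ o _ K x _ _ _ _ sg).trans ((mul_le_mul_of_nonneg_left k1 hq).trans (le_of_eq ?_))
  ring

/-- **Two functionals of the cut families.** -/
theorem CStUV.add {Du Dv : Sel} (hDu : NoCD Du) (hDv : NoCD Dv) {T1 T2 T : H401.FunF}
    (H1 : CStUV Du Dv T1) (H2 : CStUV Du Dv T2)
    (h : ∀ (ι : Type) [Fintype ι] [DecidableEq ι] (l : ℝ) (o : ℤ) (Al : ℕ → Pt → Prop) (K : ℕ)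
      (x : Pt) (u : ℤ → ℤ → ι → ℝ) (A : FamA) (b C : FamV ι) (sg : ℕ → Pt → ℝ),
      T ι l o Al K x u A b C sg ≤ T1 ι l o Al K x u A b C sg +
        T2 ι l o Al K x u A b C sg) : CStUV Du Dv T := by
  unfold CStUV PartQ at H1 H2 ⊢
  refine PartQ.add H1 H2 ?_ ?_ ?_
  · intro ι _ _ p CD n ez F1 F2 F3 o K x s r U g u v B h1
    have e := hDu ι p CD K x s r U u
    have e' := hDv ι p CD K x s r U v
    simp only [e, e'] at h1
    exact h1
  · intro ι _ _ p CD n ez F1 F2 F3 o K x s r U g u v B h1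
    have e := hDu ι p CD K x s r U u
    have e' := hDv ι p CD K x s r U v
    simp only [e, e'] at h1
    exact h1
  · intro ι _ _ p n ez F1 F2 F3 o K x s r U g u v B1 B2 B _ _ _ _ k1 k2 k3 Q1 Q2 Q3 q1 q2 q3 sg hsg
    exact (h ι _ o _ K x _ _ _ _ sg).trans ((add_le_add (k1 Q1 Q2 Q3 q1 q2 q3 sg hsg)
      (k2 Q1 Q2 Q3 q1 q2 q3 sg hsg)).trans k3)

/-- **The flow part from its four parts**, both cuts. -/
theorem cstUV_flow {Du Dv : Sel} (hDu : NoCD Du) (hDv : NoCD Dv) (HN : CStUV Du Dv fN)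
    (HB : CStUV Du Dv fB) (HS : CStUV Du Dv fS) (HM : CStUV Du Dv fM) : CStUV Du Dv NF := by
  have h1 : CStUV Du Dv (fun ι _ _ l o Al K x u A b C sg =>
      fS ι l o Al K x u A b C sg + fM ι l o Al K x u A b C sg) :=
    CStUV.add hDu hDv HS HM fun ι _ _ l o Al K x u A b C sg => le_rfl
  have h2 : CStUV Du Dv (fun ι _ _ l o Al K x u A b C sg =>
      8 / 3 * (fS ι l o Al K x u A b C sg + fM ι l o Al K x u A b C sg)) :=
    CStUV.scale (by norm_num : (0 : ℝ) ≤ 8 / 3) h1 fun ι _ _ l o Al K x u A b C sg => le_rfl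
  have h3 : CStUV Du Dv (fun ι _ _ l o Al K x u A b C sg => fB ι l o Al K x u A b C sg +
      8 / 3 * (fS ι l o Al K x u A b C sg + fM ι l o Al K x u A b C sg)) :=
    CStUV.add hDu hDv HB h2 fun ι _ _ l o Al K x u A b C sg => le_rfl
  have h4 : CStUV Du Dv (fun ι _ _ l o Al K x u A b C sg => f0 ι l o Al K x u A b C sg +
      (fB ι l o Al K x u A b C sg +
        8 / 3 * (fS ι l o Al K x u A b C sg + fM ι l o Al K x u A b C sg))) :=
    CStUV.add hDu hDv (Vale.Agent.P141.H305.CutU.CSt.toUV Du Dv cst_f0) h3 fun ι _ _ l o Al K x u A b C sg => le_rfl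
  exact CStUV.add hDu hDv HN h4 fun ι _ _ l o Al K x u A b C sg => NF_le l o Al K x u A b C sg

/-- **The assembly with the static cuts of `u` and `v`.** -/
theorem fullUV (Du Dv : Sel) (hDu : NoCD Du) (hDv : NoCD Dv) (H00 : HSt00 Du) (H0 : HSt0 Dv)
    (HI : CStUV Du Dv NI) (HZ : CStUV Du Dv NZ) (HN : CStUV Du Dv fN) (HB : CStUV Du Dv fB)
    (HS : CStUV Du Dv fS) (HM : CStUV Du Dv fM) : H490.FinalStmt :=
  final_of_ce1q (ce1q_of_cstUV Du Dv hDu hDv H00 (Vale.Agent.P141.H305.CutU.HSt0.toU Du H0)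
    (Vale.Agent.P141.H305.CutU.HStV.toU Du ((HSt.of_three H74.hst1 H74.hst2 H64.hSt3).toV Dv)) HI HZ
    (cstUV_flow hDu hDv HN HB HS HM))

/-- **THE LIST OF THE OPEN STATEMENTS**, both cuts, any cut of `u`. -/
theorem open_listU (Du : Sel) (hDu : NoCD Du) (H00 : HSt00 Du) (HI : CStUV Du DvS NI)
    (HZ : CStUV Du DvS NZ) (HN : CStUV Du DvS fN) (HB : CStUV Du DvS fB)
    (HS : CStUV Du DvS fS) (HM : CStUV Du DvS fM) : H490.FinalStmt :=
  fullUV Du DvS hDu DvS_CD H00 H508.hst0S HI HZ HN HB HS HM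

/-- the bundle of the increasing part -/
def BT : Bun := fun _ι _ _ p _n ez _F1 _F2 _F3 _o K x s _r _U _g _u v A b C =>
  H652.DT p ez K x s v A b C

/-- **The increasing part with the slot `Th`.** -/
theorem cst_NI {D : Bun}
    (hM : MkSt (fun ι _ _ p n ez F1 F2 F3 o K x s r U g u v A b C =>
      BT ι p n ez F1 F2 F3 o K x s r U g u v A b C ∧ D ι p n ez F1 F2 F3 o K x s r U g u v A b C))
    (H : PartF (fun ι _ _ p n ez F1 F2 F3 o K x s r U g u v A b C =>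
      BT ι p n ez F1 F2 F3 o K x s r U g u v A b C ∧ D ι p n ez F1 F2 F3 o K x s r U g u v A b C)
      H652.NT) : CSt NI :=
  CSt.of_mk hM (H652.NI_of_NT (fun ι _ _ p n ez F1 F2 F3 o K x s r U g u v A b C h => h.1) H)

end Vale.Agent.P141.H879
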