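import Vale.Agent.P141.H571.Top2
import Vale.Agent.P141.H401.Adapt
import Vale.Agent.P141.H927.CenTop2
import Vale.Agent.P141.H305.TopMq
import Vale.Agent.P141.H120.BoxL
import Vale.Agent.P141.H664.LowTop

/-!
# P141, line (A): the assembly

Everything above the three parts is proved:

* `final_of_ce1q : CE1q → FinalStmt`;
* `final_of_fam`, `final_of_three`: from the makers and the parts of the cut families.
-/

namespace Vale.Agent.P141.H879

open Vale.Agent.P141.H305 (CE1q)
open Vale.Agent.P141.H927 (CenStM CenStL2)
open Vale.Agent.P141.H401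

/-- **The costs of the centre atoms with one low vector edge.** -/
theorem cenStL2 : CenStL2 := H664.cenStL2_of_box H120.box_low

/-- **The costs of the centre atoms** from the class statement. -/
theorem cenStM_of_ce1q (h : CE1q) : CenStM :=
  H490.CenM.cenStM_of_m (H305.ce1M_of_q h)

/-- **The final statement from the costs of the centre atoms**, many and few. -/
theorem final_of_cen (hM : CenStM) (hL : CenStL2) : H490.FinalStmt :=
  H571.final_of_gen2 (H927.genOut2_of_cen hM hL)

/-- **The final statement from the class statement.** -/
theorem final_of_ce1q (h : CE1q) : H490.FinalStmt :=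
  final_of_cen (cenStM_of_ce1q h) cenStL2

/-- **One bundle for the cut families.** -/
theorem final_of_fam {D : Bun} (HH : PartH D) (HI : PartF D NI) (HZ : PartF D NZ)
    (HF : PartF D NF) : H490.FinalStmt :=
  final_of_ce1q (ce1q_of_fam HH HI HZ HF)

/-- **Three bundles for the cut families.** -/
theorem final_of_three {DI DZ DF : Bun}
    (HH : PartH fun ι _ _ p n ez F1 F2 F3 o K x s r U g u v A b C =>
      DI ι p n ez F1 F2 F3 o K x s r U g u v A b C ∧ DZ ι p n ez F1 F2 F3 o K x s r U g u v A b C ∧
        DF ι p n ez F1 F2 F3 o K x s r U g u v A b C)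
    (HI : PartF DI NI) (HZ : PartF DZ NZ) (HF : PartF DF NTFf) : H490.FinalStmt :=
  final_of_ce1q (ce1q_of_three HH HI HZ HF)

end Vale.Agent.P141.H879
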