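import Vale.Agent.P141.H305.TopM
import Vale.Agent.P141.H927.Spec2
import Vale.Agent.P141.H650.Spec.CE1N

/-!
# P141, line (A), top: `H305.CE1M → H927.CE1M`

The two statements differ in the quantifier of `a`, in `L ≥ 1` against `L ≥ 0` and in the form of
the density line.
-/

namespace Vale.Agent.P141.H879

open Finset
open Vale.Agent.P141.PL (Pt)
open Vale.Agent.P141.PL.H315 (iv avg)
open Vale.Agent.P141.H650 (Cen.mono_K)

noncomputable section

open scoped Classical

/-- the density line of `H927.CE1M` gives the one of `H305.CE1M` -/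
theorem dens_of {D t s a L L' : ℝ} (ht : 0 < t) (hs : 0 < s) (hL : L ≤ L')
    (h : D * (t ^ 2 * √s) ≤ L * (t ^ a * s)) : D ≤ L' * (t ^ (a - 2) * √s) := by
  have hss : 0 < √s := Real.sqrt_pos.2 hs
  have hta : 0 < t ^ a := Real.rpow_pos_of_pos ht a
  have h2 : (0 : ℝ) < t ^ 2 * √s := by positivity
  have e1 : t ^ (a - 2) = t ^ a / t ^ 2 := by
    rw [Real.rpow_sub ht, Real.rpow_two]
  have e2 : L' * (t ^ (a - 2) * √s) * (t ^ 2 * √s) = L' * (t ^ a * s) := by
    rw [e1]
    have h3 : √s * √s = s := Real.mul_self_sqrt hs.le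
    have h4 : (t ^ 2 : ℝ) ≠ 0 := by positivity
    field_simp
    rw [show √s ^ 2 = s by rw [sq, h3]]
  have h5 : D * (t ^ 2 * √s) ≤ L' * (t ^ (a - 2) * √s) * (t ^ 2 * √s) := by
    rw [e2]
    exact h.trans (mul_le_mul_of_nonneg_right hL (by positivity))
  exact le_of_mul_le_mul_right h5 h2

/-- **The bridge.** -/
theorem ce1M_of (H : H305.CE1M) : H927.CE1M := by
  obtain ⟨gam, c1, hg, hc1, H⟩ := H (1 / 4000) (by norm_num) (by norm_num)
  refine ⟨1 / 4000, gam, c1, by norm_num, le_rfl, hg, hc1, fun c hc hcc Kt e cP L hK he hcP hL => ?_⟩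
  obtain ⟨C, hC, H⟩ := H c hc hcc Kt e cP (max 1 L) hK he hcP (le_max_left _ _)
  refine ⟨C, hC, ?_⟩
  intro t ht ht1 n ez F1 F2 F3 h1 h3 h2 o ho K hKn x V _ _ _ s g u v X hs hcen hu hv hX
  have hss : 0 ≤ √s := Real.sqrt_nonneg s
  have htc : 0 < t ^ (2 - c) := Real.rpow_pos_of_pos ht _
  refine H t ht ht1 n ez F1 F2 F3 h1 h3 h2 o ho K hKn x V s g u v X hs
    (Cen.mono_K hcen ?_) hu hv (dens_of ht hs (le_max_right 1 L) hX)
  exact mul_le_mul_of_nonneg_right (mul_le_mul_of_nonneg_right (le_max_right 1 L) htc.le) hss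

end

end Vale.Agent.P141.H879
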