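import Vale.Agent.P141.H401.Fin11
import Vale.Agent.P141.H222.NumBC

/-!
# P141, line (A): the closing theorem
-/

namespace Vale.Agent.P141.H879

/-- **The final statement at every `r < 2`.** -/
theorem last : H397.FinalAll :=
  H401.finalAll_of_LBCg H222.Nb.lBCg

end Vale.Agent.P141.H879
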